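import Vale.Agent.P141.PL.Defs

/-!
# P141, line (A): nested families with packing

Cells of scale `k` are elements of a type with ancestors `u j q` (`j` levels up) and descendants
`D d p` (`d` levels down). `Af k q`: the cell `q` of scale `k` is affected. `Nst n Af k q`: number of
the affected cells of scale at most `n` which contain the cell, itself included. `Tl lam`: measure of
the affected cells of nesting depth above `lam`. Packing with constant `B` on every affected cell
gives `Tl lam ≤ (1 - 1 / B) ^ lam * Tl 0`; the affected cells of one depth are disjoint.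
-/

namespace Vale.Agent.P141.H853

open Finset

noncomputable section

open scoped Classical

section gen

variable {β : Type*} (u : ℕ → β → β) (D : ℕ → β → Finset β)

/-- number of affected cells which contain the cell `q` of scale `k`, itself included -/
def Nst (n : ℕ) (Af : ℕ → β → Prop) (k : ℕ) (q : β) : ℕ :=
  #{j ∈ Icc k n | Af j (u (j - k) q)}

/-- weight of the affected cells of depth above `lam` -/
def Tl (w : ℕ → ℝ) (n : ℕ) (M : β) (Af : ℕ → β → Prop) (lam : ℕ) : ℝ :=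
  ∑ k ∈ range (n + 1), ∑ q ∈ D (n - k) M with Af k q ∧ lam < Nst u n Af k q, w k

/-- weight of the affected cells of depth exactly `lam` -/
def Te (w : ℕ → ℝ) (n : ℕ) (M : β) (Af : ℕ → β → Prop) (lam : ℕ) : ℝ :=
  ∑ k ∈ range (n + 1), ∑ q ∈ D (n - k) M with Af k q ∧ Nst u n Af k q = lam, w k

variable {u D}

theorem Tl_split (w : ℕ → ℝ) (n : ℕ) (M : β) (Af : ℕ → β → Prop) (lam : ℕ) :
    Tl u D w n M Af lam = Te u D w n M Af (lam + 1) + Tl u D w n M Af (lam + 1) := by
  unfold Tl Te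
  rw [← sum_add_distrib]
  refine sum_congr rfl fun k _ => ?_
  rw [← sum_union]
  · refine sum_congr ?_ fun _ _ => rfl
    ext q
    simp only [mem_union, mem_filter]
    constructor
    · rintro ⟨h1, h2, h3⟩
      rcases Nat.lt_or_ge (lam + 1) (Nst u n Af k q) with h | h
      · exact Or.inr ⟨h1, h2, h⟩
      · exact Or.inl ⟨h1, h2, by omega⟩
    · rintro (⟨h1, h2, h3⟩ | ⟨h1, h2, h3⟩)
      · exact ⟨h1, h2, by omega⟩
      · exact ⟨h1, h2, by omega⟩
  · rw [disjoint_left]
    intro q h h'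
    rw [mem_filter] at h h'
    omega

theorem Tl_nonneg {w : ℕ → ℝ} (hw : ∀ k, 0 ≤ w k) (n : ℕ) (M : β) (Af : ℕ → β → Prop) (lam : ℕ) :
    0 ≤ Tl u D w n M Af lam :=
  sum_nonneg fun k _ => sum_nonneg fun _ _ => hw k

/-- the depth of an ancestor -/
theorem Nst_up (hu : ∀ i j q, u j (u i q) = u (i + j) q) (n : ℕ) (Af : ℕ → β → Prop) {k j : ℕ}
    (hkj : k ≤ j) (q : β) :
    Nst u n Af j (u (j - k) q) = #{i ∈ Icc j n | Af i (u (i - k) q)} := by
  unfold Nst
  congr 1
  refine filter_congr fun i hi => ?_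
  rw [mem_Icc] at hi
  rw [hu]
  have e : j - k + (i - j) = i - k := by omega
  rw [e]

/-- an affected cell of depth above `lam` has an affected ancestor of depth `lam + 1` -/
theorem exists_anc (hu0 : ∀ q, u 0 q = q) (hu : ∀ i j q, u j (u i q) = u (i + j) q) {n : ℕ}
    {Af : ℕ → β → Prop} {k : ℕ} (hk : k ≤ n) {q : β} {lam : ℕ} (h : lam < Nst u n Af k q) :
    ∃ j ∈ Icc k n, Af j (u (j - k) q) ∧ Nst u n Af j (u (j - k) q) = lam + 1 := by
  set g : ℕ → ℕ := fun j => #{i ∈ Icc j n | Af i (u (i - k) q)} with hg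
  have hgk : lam + 1 ≤ g k := by
    have e : g k = Nst u n Af k q := by
      have e1 := Nst_up hu n Af (le_refl k) q
      rw [Nat.sub_self, hu0] at e1
      exact e1.symm
    omega
  have hstep : ∀ j ≤ n, g j = (if Af j (u (j - k) q) then 1 else 0) + g (j + 1) := by
    intro j hj
    have e : Icc j n = insert j (Icc (j + 1) n) := by
      ext i
      simp only [mem_Icc, mem_insert]
      omega
    have hn : j ∉ Icc (j + 1) n := by
      rw [mem_Icc]
      omega
    simp only [hg]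
    rw [e, filter_insert]
    split_ifs with hA
    · rw [card_insert_of_notMem (fun h' => hn (mem_of_mem_filter j h'))]
      omega
    · omega
  set j := Nat.findGreatest (fun j => lam + 1 ≤ g j) n with hj
  have hjn : j ≤ n := Nat.findGreatest_le n
  have hkj : k ≤ j := Nat.le_findGreatest hk hgk
  have hPj : lam + 1 ≤ g j := Nat.findGreatest_spec (P := fun j => lam + 1 ≤ g j) hk hgk
  have hnext : g (j + 1) ≤ lam := by
    by_contra hcon
    push Not at hcon
    rcases Nat.lt_or_ge n (j + 1) with h1 | h1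
    · have : g (j + 1) = 0 := by
        simp only [hg]
        rw [Icc_eq_empty (by omega), filter_empty, card_empty]
      omega
    · have := Nat.le_findGreatest (P := fun j => lam + 1 ≤ g j) h1 hcon
      omega
  have hs := hstep j hjn
  refine ⟨j, mem_Icc.2 ⟨hkj, hjn⟩, ?_, ?_⟩
  · by_contra hA
    rw [if_neg hA] at hs
    omega
  · rw [Nst_up hu n Af hkj q]
    change g j = lam + 1
    split_ifs at hs <;> omega

/-- **One step.** -/
theorem Tl_le (hu0 : ∀ q, u 0 q = q) (hu : ∀ i j q, u j (u i q) = u (i + j) q)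
    (hD : ∀ d p q, q ∈ D d p ↔ u d q = p) {w : ℕ → ℝ} (hw : ∀ k, 0 ≤ w k) {n : ℕ} {M : β}
    {Af : ℕ → β → Prop} {B : ℝ}
    (hP : ∀ j ≤ n, ∀ p ∈ D (n - j) M, Af j p →
      ∑ k ∈ range (j + 1), ∑ q ∈ D (j - k) p with Af k q, w k ≤ B * w j) (lam : ℕ) :
    Tl u D w n M Af lam ≤ B * Te u D w n M Af (lam + 1) := by
  -- the pairs
  have h1 : Tl u D w n M Af lam ≤ ∑ j ∈ range (n + 1),
      ∑ p ∈ D (n - j) M with Af j p ∧ Nst u n Af j p = lam + 1,
        ∑ k ∈ range (j + 1), ∑ q ∈ D (j - k) p with Af k q, w k := by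
    have a1 : Tl u D w n M Af lam ≤ ∑ k ∈ range (n + 1), ∑ q ∈ D (n - k) M with Af k q,
        ∑ j ∈ Icc k n, if Af j (u (j - k) q) ∧ Nst u n Af j (u (j - k) q) = lam + 1 then w k
          else 0 := by
      unfold Tl
      refine sum_le_sum fun k hk => ?_
      rw [mem_range] at hk
      have e : ({q ∈ D (n - k) M | Af k q ∧ lam < Nst u n Af k q} : Finset β) =
          {q ∈ {q ∈ D (n - k) M | Af k q} | lam < Nst u n Af k q} := by
        rw [filter_filter]
      rw [e, sum_filter]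
      refine sum_le_sum fun q _ => ?_
      split_ifs with hN
      · obtain ⟨j, hj, h2, h3⟩ := exists_anc hu0 hu (by omega) hN
        refine le_trans (le_of_eq ?_) (single_le_sum (f := fun j =>
          if Af j (u (j - k) q) ∧ Nst u n Af j (u (j - k) q) = lam + 1 then w k else 0)
          (fun i _ => by
            split_ifs
            · exact hw k
            · exact le_rfl) hj)
        rw [if_pos ⟨h2, h3⟩]
      · refine sum_nonneg fun i _ => ?_
        split_ifs
        · exact hw k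
        · exact le_rfl
    refine a1.trans ?_
    -- swap
    have a2 : ∀ k ∈ range (n + 1), ∑ q ∈ D (n - k) M with Af k q,
        (∑ j ∈ Icc k n, if Af j (u (j - k) q) ∧ Nst u n Af j (u (j - k) q) = lam + 1 then w k
          else 0) ≤ ∑ j ∈ Icc k n, ∑ p ∈ D (n - j) M with Af j p ∧ Nst u n Af j p = lam + 1,
            ∑ q ∈ D (j - k) p with Af k q, w k := by
      intro k _
      rw [sum_comm]
      refine sum_le_sum fun j hj => ?_
      rw [mem_Icc] at hj
      rw [← sum_filter, filter_filter]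
      have hmap : ∀ q ∈ ({q ∈ D (n - k) M | Af k q ∧ Af j (u (j - k) q) ∧
          Nst u n Af j (u (j - k) q) = lam + 1} : Finset β), u (j - k) q ∈
          ({p ∈ D (n - j) M | Af j p ∧ Nst u n Af j p = lam + 1} : Finset β) := by
        intro q hq
        rw [mem_filter] at hq ⊢
        refine ⟨?_, hq.2.2⟩
        rw [hD, hu]
        have e : j - k + (n - j) = n - k := by omega
        rw [e]
        exact (hD _ _ _).1 hq.1
      rw [← sum_fiberwise_of_maps_to hmap]
      refine sum_le_sum fun p _ => ?_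
      refine sum_le_sum_of_subset_of_nonneg ?_ fun _ _ _ => hw k
      intro q hq
      simp only [mem_filter] at hq ⊢
      exact ⟨(hD _ _ _).2 hq.2, hq.1.2.1⟩
    refine (sum_le_sum a2).trans (le_of_eq ?_)
    have e3 : ∀ (f : ℕ → ℕ → ℝ), ∑ k ∈ range (n + 1), ∑ j ∈ Icc k n, f k j =
        ∑ j ∈ range (n + 1), ∑ k ∈ range (j + 1), f k j := by
      intro f
      rw [sum_sigma', sum_sigma']
      refine sum_nbij' (fun x => ⟨x.2, x.1⟩) (fun y => ⟨y.2, y.1⟩) ?_ ?_ ?_ ?_ ?_
      · rintro ⟨a, b⟩ h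
        simp only [mem_sigma, mem_range, mem_Icc] at h ⊢
        omega
      · rintro ⟨a, b⟩ h
        simp only [mem_sigma, mem_range, mem_Icc] at h ⊢
        omega
      · rintro ⟨a, b⟩ _
        rfl
      · rintro ⟨a, b⟩ _
        rfl
      · rintro ⟨a, b⟩ _
        rfl
    rw [e3 fun k j => ∑ p ∈ D (n - j) M with Af j p ∧ Nst u n Af j p = lam + 1,
      ∑ q ∈ D (j - k) p with Af k q, w k]
    refine sum_congr rfl fun j _ => ?_
    rw [sum_comm]
  refine h1.trans ?_
  unfold Te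
  rw [mul_sum]
  refine sum_le_sum fun j hj => ?_
  rw [mul_sum]
  refine sum_le_sum fun p hp => ?_
  rw [mem_range] at hj
  rw [mem_filter] at hp
  exact hP j (by omega) p hp.1 hp.2.1

/-- **The tail of the nesting depth.** -/
theorem nest_tail (hu0 : ∀ q, u 0 q = q) (hu : ∀ i j q, u j (u i q) = u (i + j) q)
    (hD : ∀ d p q, q ∈ D d p ↔ u d q = p) {w : ℕ → ℝ} (hw : ∀ k, 0 ≤ w k) {n : ℕ} {M : β}
    {Af : ℕ → β → Prop} {B : ℝ} (hB : 1 ≤ B)
    (hP : ∀ j ≤ n, ∀ p ∈ D (n - j) M, Af j p →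
      ∑ k ∈ range (j + 1), ∑ q ∈ D (j - k) p with Af k q, w k ≤ B * w j) (lam : ℕ) :
    Tl u D w n M Af lam ≤ (1 - 1 / B) ^ lam * Tl u D w n M Af 0 := by
  have hB0 : 0 < B := by linarith
  have h0 : 0 ≤ 1 - 1 / B := by
    rw [sub_nonneg, div_le_one hB0]
    exact hB
  induction lam with
  | zero => simp
  | succ lam ih =>
    have h1 := Tl_le hu0 hu hD hw hP lam
    have h2 := Tl_split (u := u) (D := D) w n M Af lam
    set a := Tl u D w n M Af lam with ha
    set b := Tl u D w n M Af (lam + 1) with hb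
    set c := Te u D w n M Af (lam + 1) with hc
    have h3 : b ≤ (1 - 1 / B) * a := by
      have h4 : 1 / B * a ≤ c := by
        rw [div_mul_eq_mul_div, one_mul, div_le_iff₀ hB0]
        linarith
      linarith
    calc b ≤ (1 - 1 / B) * a := h3
      _ ≤ (1 - 1 / B) * ((1 - 1 / B) ^ lam * Tl u D w n M Af 0) :=
          mul_le_mul_of_nonneg_left ih h0
      _ = _ := by ring

/-- everything is below the packing at the root -/
theorem Tl_zero_le {w : ℕ → ℝ} (hw : ∀ k, 0 ≤ w k) {n : ℕ} {M : β} {Af : ℕ → β → Prop} {E : ℝ}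
    (hR : ∑ k ∈ range (n + 1), ∑ q ∈ D (n - k) M with Af k q, w k ≤ E) (lam : ℕ) :
    Tl u D w n M Af lam ≤ E := by
  refine le_trans (sum_le_sum fun k _ => sum_le_sum_of_subset_of_nonneg ?_ fun _ _ _ => hw k) hR
  intro q hq
  simp only [mem_filter] at hq ⊢
  exact ⟨hq.1, hq.2.1⟩

/-- an affected cell has positive depth -/
theorem Nst_pos (hu0 : ∀ q, u 0 q = q) {n : ℕ} {Af : ℕ → β → Prop} {k : ℕ} (hk : k ≤ n) {q : β}
    (h : Af k q) : 0 < Nst u n Af k q := by
  refine card_pos.2 ⟨k, ?_⟩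
  rw [mem_filter, mem_Icc, Nat.sub_self, hu0]
  exact ⟨⟨le_rfl, hk⟩, h⟩

/-- **The affected cells of one depth which contain a point are one cell.** -/
theorem nest_disj (hu : ∀ i j q, u j (u i q) = u (i + j) q) {n : ℕ} {Af : ℕ → β → Prop} (y : β)
    {k k' i : ℕ} (hk : k ≤ n) (hk' : k' ≤ n) (h1 : Af k (u k y)) (h2 : Af k' (u k' y))
    (e1 : Nst u n Af k (u k y) = i) (e2 : Nst u n Af k' (u k' y) = i) : k = k' := by
  have key : ∀ {a b : ℕ}, a ≤ n → a < b → Af a (u a y) →
      Nst u n Af b (u b y) < Nst u n Af a (u a y) := by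
    intro a b ha hab hA
    have e : ∀ c : ℕ, Nst u n Af c (u c y) = #{j ∈ Icc c n | Af j (u j y)} := by
      intro c
      unfold Nst
      congr 1
      refine filter_congr fun j hj => ?_
      rw [mem_Icc] at hj
      rw [hu]
      have e : c + (j - c) = j := by omega
      rw [e]
    rw [e, e]
    refine card_lt_card ?_
    rw [ssubset_iff_of_subset]
    · refine ⟨a, ?_, ?_⟩
      · rw [mem_filter, mem_Icc]
        exact ⟨⟨le_rfl, ha⟩, hA⟩
      · rw [mem_filter, mem_Icc]
        omega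
    · intro j hj
      rw [mem_filter, mem_Icc] at hj ⊢
      exact ⟨⟨by omega, hj.1.2⟩, hj.2⟩
  rcases lt_trichotomy k k' with h | h | h
  · have := key hk h h1
    omega
  · exact h
  · have := key hk' h h2
    omega

end gen

/-! ### Cubes -/

theorem cx_zero (q : PL.Pt) : PL.cx 0 q = q := by
  unfold PL.cx PL.ix
  simp

theorem cx_cx (i j : ℕ) (q : PL.Pt) : PL.cx j (PL.cx i q) = PL.cx (i + j) q := by
  unfold PL.cx
  simp only [PL.ix_ix]

/-- **The tail of the nesting depth, cubes.** -/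
theorem nest_cube {n : ℕ} {M : PL.Pt} {Af : ℕ → PL.Pt → Prop} {B : ℝ} (hB : 1 ≤ B)
    (hP : ∀ j ≤ n, ∀ p ∈ PL.cb (n - j) M,
      ∑ k ∈ range (j + 1), ∑ q ∈ PL.cb (j - k) p with Af k q, (8 : ℝ) ^ k ≤ B * 8 ^ j)
    (lam : ℕ) :
    ∑ k ∈ range (n + 1), ∑ q ∈ PL.cb (n - k) M with Af k q ∧ lam < Nst PL.cx n Af k q,
      (8 : ℝ) ^ k ≤ (1 - 1 / B) ^ lam * (B * 8 ^ n) := by
  have hB0 : 0 < B := by linarith
  have h0 : 0 ≤ 1 - 1 / B := by
    rw [sub_nonneg, div_le_one hB0]
    exact hB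
  have h1 := nest_tail (u := PL.cx) (D := PL.cb) cx_zero (fun i j q => cx_cx i j q)
    (fun _ _ _ => PL.mem_cb) (w := fun k => (8 : ℝ) ^ k) (fun k => by positivity) (n := n) (M := M)
    (Af := Af) hB (fun j hj p hp _ => hP j hj p hp) lam
  refine h1.trans (mul_le_mul_of_nonneg_left ?_ (pow_nonneg h0 lam))
  refine Tl_zero_le (fun k => by positivity) ?_ 0
  have h2 := hP n le_rfl M (by
    rw [Nat.sub_self, PL.mem_cb]
    exact cx_zero M)
  exact h2

/-- the affected cubes of one depth which contain a point are one cube -/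
theorem nest_cube_disj {n : ℕ} {Af : ℕ → PL.Pt → Prop} (y : PL.Pt) {k k' i : ℕ} (hk : k ≤ n)
    (hk' : k' ≤ n) (h1 : Af k (PL.cx k y)) (h2 : Af k' (PL.cx k' y))
    (e1 : Nst PL.cx n Af k (PL.cx k y) = i) (e2 : Nst PL.cx n Af k' (PL.cx k' y) = i) : k = k' :=
  nest_disj (fun i j q => cx_cx i j q) y hk hk' h1 h2 e1 e2

/-! ### Squares -/

/-- ancestors of squares -/
def sx (j : ℕ) (q : ℤ × ℤ) : ℤ × ℤ := (PL.ix j q.1, PL.ix j q.2)

/-- descendants of squares -/
def sb (d : ℕ) (p : ℤ × ℤ) : Finset (ℤ × ℤ) := PL.iv d p.1 ×ˢ PL.iv d p.2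

theorem mem_sb {d : ℕ} {p q : ℤ × ℤ} : q ∈ sb d p ↔ sx d q = p := by
  unfold sb sx
  rw [mem_product, PL.mem_iv, PL.mem_iv]
  constructor
  · rintro ⟨h1, h2⟩
    rw [h1, h2]
  · rintro rfl
    exact ⟨rfl, rfl⟩

theorem sx_zero (q : ℤ × ℤ) : sx 0 q = q := by
  unfold sx PL.ix
  simp

theorem sx_sx (i j : ℕ) (q : ℤ × ℤ) : sx j (sx i q) = sx (i + j) q := by
  unfold sx
  simp only [PL.ix_ix]

/-- **The tail of the nesting depth, squares.** -/
theorem nest_sq {n : ℕ} {M : ℤ × ℤ} {Af : ℕ → ℤ × ℤ → Prop} {B : ℝ} (hB : 1 ≤ B)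
    (hP : ∀ j ≤ n, ∀ p ∈ sb (n - j) M,
      ∑ k ∈ range (j + 1), ∑ q ∈ sb (j - k) p with Af k q, (4 : ℝ) ^ k ≤ B * 4 ^ j)
    (lam : ℕ) :
    ∑ k ∈ range (n + 1), ∑ q ∈ sb (n - k) M with Af k q ∧ lam < Nst sx n Af k q,
      (4 : ℝ) ^ k ≤ (1 - 1 / B) ^ lam * (B * 4 ^ n) := by
  have hB0 : 0 < B := by linarith
  have h0 : 0 ≤ 1 - 1 / B := by
    rw [sub_nonneg, div_le_one hB0]
    exact hB
  have h1 := nest_tail (u := sx) (D := sb) sx_zero (fun i j q => sx_sx i j q)
    (fun _ _ _ => mem_sb) (w := fun k => (4 : ℝ) ^ k) (fun k => by positivity) (n := n) (M := M)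
    (Af := Af) hB (fun j hj p hp _ => hP j hj p hp) lam
  refine h1.trans (mul_le_mul_of_nonneg_left ?_ (pow_nonneg h0 lam))
  refine Tl_zero_le (fun k => by positivity) ?_ 0
  have h2 := hP n le_rfl M (by
    rw [Nat.sub_self, mem_sb]
    exact sx_zero M)
  exact h2

end

end Vale.Agent.P141.H853
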